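import Crest.Agent.R169.ExForm
import Crest.Agent.R169.ExCount
import Crest.Agent.R169.ExPar
import Crest.Agent.R169.ExPet
import Crest.Agent.R169.ExField
import Crest.Agent.R169.ExNormal
import Crest.Agent.R169.ExCharts
import Crest.Agent.R169.ExDerCond
import Crest.Agent.R169.ExCurve

/-!
# Row 169, module EX: all top theorems: `Qk`, `QD.iform`, `QD.hp`, `growth`, `QD.exists_par`, `QD.gen1`,
`QD.normal`, `QD.charts`, `QD.dercond` (`C0 = 21`), `QD.curve`.
-/
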