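import Crest.Agent.R169.Lat1
import Crest.Agent.R169.Lat2a
import Crest.Agent.R169.Lat2H

/-!
# Row 169, module 0 (LAT): L2 + L3 (helper88; proved in Lat2a, Lat2H)
-/
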