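import Crest.Agent.R169.Lat0
import Crest.Agent.R169.Lat1
import Crest.Agent.R169.Lat2
import Crest.Agent.R169.Lat4d
import Crest.Agent.R169.Lat6a
import Crest.Agent.R169.Lat6d
import Crest.Agent.R169.Lat6f
import Crest.Agent.R169.Lat6g
import Crest.Agent.R169.Lat6h
import Crest.Agent.R169.Lat7
import Crest.Agent.R169.Lat8b
import Crest.Agent.R169.Lat8c
import Crest.Agent.R169.Lat8e
import Crest.Agent.R169.LatL5

/-!
# Row 169, module 0 (LAT): the lattice library (interface of all other modules).

The statements (L1 - L8) live in the imported files, with exactly the names and types of the original `LatAPI`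
(except `IsRefl.sat`, which needs `ind`).
-/

set_option autoImplicit false

namespace R169

section api

variable {k L : Type} [Field k] [Field L] [Algebra k L]
variable {W : Type} [AddCommGroup W] [Module k W] [Module L W] [IsScalarTower k L W]
variable {D : GD k L} {η ζ : L} {E E' : ℤ → Submodule k W}

end api

end R169
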